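import Vale.Agent.P213.SX.Defs

/-!
Statement-level definitions for the comparison of the Thomason model structures on strict
`n`-categories and on strict `m`-categories, `n ≤ m`, for all subdivisions `Sd^k`, `k ≥ 2` (kept
short).
-/

open CategoryTheory Limits SSet.modelCategoryQuillen

namespace Vale.Agent.P213.H574

open SX

/-- A strict `n`-category seen as a strict `m`-category, `n ≤ m`: same cells, same operations. -/
def up {n m : ℕ∞} (h : n ≤ m) (X : NCat n) : NCat m :=
  { X with dim := fun k x hk => X.dim k x (h.trans hk) }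

/-- The inclusion of strict `n`-categories into strict `m`-categories, `n ≤ m`. -/
def incl {n m : ℕ∞} (h : n ≤ m) : NCat n ⥤ NCat m where
  obj := up h
  map f := ⟨f.toFun, f.isFun⟩

/-- The `k`-fold subdivision `Sd^k`. -/
noncomputable def sdk : ℕ → (SSet.{0} ⥤ SSet.{0})
  | 0 => 𝟭 _
  | k + 1 => sdk k ⋙ SSet.sd

/-- The `k`-fold extension `Ex^k`. -/
noncomputable def exk : ℕ → (SSet.{0} ⥤ SSet.{0})
  | 0 => 𝟭 _
  | k + 1 => SSet.ex ⋙ exk k

/-- The adjunction `Sd^k ⊣ Ex^k`. -/
noncomputable def adjk : ∀ k, sdk k ⊣ exk k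
  | 0 => Adjunction.id
  | k + 1 => (adjk k).comp SSet.sdExAdjunction

section

variable {D E : Type 1} [Category.{0} D] [Category.{0} E] (N : D ⥤ SSet.{0}) (k : ℕ)

/-- The maps `f` such that `Ex^k N f` is a Kan fibration; `k = 2`: Thomason fibrations. -/
def thFk : MorphismProperty D := J.rlp.inverseImage (N ⋙ exk k)

/-- The maps with the left lifting property against the maps in `thFk` and `thW`. -/
def thCk : MorphismProperty D := (thFk N k ⊓ thW N).llp

/-- The Thomason statement with `Sd^k ⊣ Ex^k` in place of `Sd² ⊣ Ex²`. -/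
def IsThomasonK : Prop :=
  IsModel (thCk N k) (thW N) (thFk N k) ∧ IsProper (thCk N k) (thW N) (thFk N k) ∧
  ∀ c (h : c ⊣ N), IsQuillenEquivalence ((adjk k).comp h) (thCk N k) (thW N) ∧
    (I.map (sdk k ⋙ c)).rlp = thFk N k ⊓ thW N ∧ (J.map (sdk k ⋙ c)).rlp = thFk N k

/-- Cofibrant objects: every map from an initial object is a cofibration. -/
def IsCof (cof : MorphismProperty D) (X : D) : Prop :=
  ∀ (A : D) (_ : IsInitial A) (i : A ⟶ X), cof i

/-- No nonidentity cell of `X` lies on a cycle: if the `0`-target of each of two cells is the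
`0`-source of the other one, then they are `0`-cells. -/
def IsLoopFree {n : ℕ∞} (X : NCat n) : Prop :=
  ∀ x y : X.C, X.d true 0 x = X.d false 0 y → X.d true 0 y = X.d false 0 x →
    X.d false 0 x = x

/-- Quillen equivalences, in a strong form: `L` preserves cofibrations and trivial cofibrations,
and for all cofibrant `X` and all `Y` (fibrant or not) a map `L X ⟶ Y` is a weak equivalence if
and only if its adjunct `X ⟶ R Y` is. -/
def IsQuillenEq {L : D ⥤ E} {R : E ⥤ D} (adj : L ⊣ R)
    (cof w : MorphismProperty D) (cof' w' : MorphismProperty E) : Prop :=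
  (∀ X Y (i : X ⟶ Y), cof i → cof' (L.map i) ∧ (w i → w' (L.map i))) ∧
  ∀ X Y (f : L.obj X ⟶ Y), IsCof cof X → (w' f ↔ w (adj.unit.app X ≫ R.map f))

end

end Vale.Agent.P213.H574
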