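import Vale.Agent.P213.H574.Defs
import Mathlib.AlgebraicTopology.ModelCategory.BrownLemma

/-!
Quillen equivalences between right transferred model structures.
-/

open CategoryTheory Limits HomotopicalAlgebra

namespace Vale.Agent.P213.H574

open SX

section

variable {D E : Type 1} [Category.{0} D] [Category.{0} E] [ModelCategory D] [ModelCategory E]
  {L : D ⥤ E} {R : E ⥤ D} (adj : L ⊣ R)

include adj

theorem cof_map (hw : weakEquivalences E = (weakEquivalences D).inverseImage R)
    (hf : fibrations E ≤ (fibrations D).inverseImage R) {X Y : D} (i : X ⟶ Y)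
    (hi : cofibrations D i) : cofibrations E (L.map i) := by
  rw [← MorphismProperty.llp_eq_of_wfs (cofibrations E) (trivialFibrations E)]
  intro A B p hp
  rw [adj.hasLiftingProperty_iff]
  have h1 : trivialFibrations D (R.map p) := by
    refine ⟨?_, ?_⟩
    · exact hf _ hp.1
    · have := hp.2
      rw [hw] at this
      exact this
  rw [← MorphismProperty.llp_eq_of_wfs (cofibrations D) (trivialFibrations D)] at hi
  exact hi _ h1

theorem trivCof_map (hf : fibrations E ≤ (fibrations D).inverseImage R) {X Y : D} (i : X ⟶ Y)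
    (hi : trivialCofibrations D i) : trivialCofibrations E (L.map i) := by
  rw [← MorphismProperty.llp_eq_of_wfs (trivialCofibrations E) (fibrations E)]
  intro A B p hp
  rw [adj.hasLiftingProperty_iff]
  have h1 : fibrations D (R.map p) := hf _ hp
  rw [← MorphismProperty.llp_eq_of_wfs (trivialCofibrations D) (fibrations D)] at hi
  exact hi _ h1

/-- Ken Brown's lemma. -/
theorem we_map (hf : fibrations E ≤ (fibrations D).inverseImage R) {X Y : D} [IsCofibrant X]
    [IsCofibrant Y] (f : X ⟶ Y) (hfw : weakEquivalences D f) : weakEquivalences E (L.map f) := by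
  have : WeakEquivalence f := ⟨hfw⟩
  let b : CofibrantBrownFactorization f := Classical.arbitrary _
  have hi : weakEquivalences E (L.map b.i) :=
    (trivCof_map adj hf b.i ⟨b.hi, (inferInstance : WeakEquivalence b.i).mem⟩).2
  have hs : weakEquivalences E (L.map b.s) :=
    (trivCof_map adj hf b.s ⟨b.cofibration_s.mem, (inferInstance : WeakEquivalence b.s).mem⟩).2
  have hp : weakEquivalences E (L.map b.p) := by
    refine (weakEquivalences E).of_precomp (L.map b.s) _ hs ?_
    rw [← L.map_comp, b.s_p, L.map_id]
    exact (weakEquivalences E).id_mem _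
  rw [← b.fac, L.map_comp]
  exact (weakEquivalences E).comp_mem _ _ hi hp

omit adj in
omit [Category.{0} E] [ModelCategory E] in
/-- A cofibrant object, in terms of initial objects. -/
theorem isCofibrant_of_isCof {X : D} (h : IsCof (cofibrations D) X) : IsCofibrant X :=
  ⟨h _ initialIsInitial _⟩

end

section

theorem whe_id (K : SSet.{0}) : whe (𝟙 K) :=
  ⟨K, 𝟙 K, 𝟙 K, MorphismProperty.id_mem _ _, MorphismProperty.id_mem _ _, Category.comp_id _⟩

variable {D E : Type 1} [Category.{0} D] [Category.{0} E] {L : D ⥤ E} {R : E ⥤ D} (adj : L ⊣ R)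
  {cof w fib : MorphismProperty D} {cof' w' fib' : MorphismProperty E}
  {P : SSet.{0} ⥤ D} {S : D ⥤ SSet.{0}} (adjP : P ⊣ S)

theorem unit_comp {F G : SSet.{0} ⥤ SSet.{0}} (a : F ⊣ G) {c : SSet.{0} ⥤ D}
    {M : D ⥤ SSet.{0}} (hc : c ⊣ M) (K : SSet.{0}) :
    (a.comp (hc.comp adj)).unit.app K ≫ ((R ⋙ M) ⋙ G).map (𝟙 (L.obj (c.obj (F.obj K)))) =
      (a.comp hc).unit.app K ≫ (M ⋙ G).map (adj.unit.app ((F ⋙ c).obj K)) := by
  simp [Adjunction.comp]

/-- A right adjoint `R` which preserves and reflects weak equivalences and fibrations is a right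
Quillen equivalence as soon as its composite with a right Quillen equivalence to simplicial sets
is one. -/
theorem isQuillenEq_of (hm : ∀ K : SSet.{0}, Mono (initial.to K)) (h : IsModel cof w fib)
    (h' : IsModel cof' w' fib') (hw : w' = w.inverseImage R) (hf : fib' ≤ fib.inverseImage R)
    (hq : IsQuillenEquivalence adjP cof w)
    (hq' : ∀ K, whe (adjP.unit.app K ≫ S.map (adj.unit.app (P.obj K)))) :
    IsQuillenEq adj cof w cof' w' := by
  obtain ⟨M, rfl, rfl, rfl⟩ := h
  obtain ⟨M', h1, h2, h3⟩ := h'
  subst h1
  have hw' : weakEquivalences E = (weakEquivalences D).inverseImage R := h2.trans hw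
  have hf' : fibrations E ≤ (fibrations D).inverseImage R := h3.trans_le hf
  subst h2
  refine ⟨fun X Y i hi => ⟨cof_map adj hw' hf' i hi, fun hiw => ?_⟩, fun X Y f hX => ?_⟩
  · exact (trivCof_map adj hf' i ⟨hi, hiw⟩).2
  · have hXc : IsCofibrant X := isCofibrant_of_isCof hX
    -- the unit is a weak equivalence on objects coming from simplicial sets
    have hK : ∀ K : SSet.{0}, weakEquivalences D (adj.unit.app (P.obj K)) := by
      intro K
      rw [hq.2]
      exact hq' K
    have hPc : ∀ K : SSet.{0}, IsCofibrant (P.obj K) := by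
      intro K
      have := adjP.leftAdjoint_preservesColimits
      rw [isCofibrant_iff_of_isInitial (P.map (initial.to K))
        (IsInitial.isInitialObj P _ initialIsInitial)]
      exact ⟨(hq.1 _ _ (initial.to K) (hm K)).1⟩
    have hε : weakEquivalences D (adjP.counit.app X) := by
      rw [hq.2]
      have h2 : adjP.unit.app (S.obj X) ≫ S.map (adjP.counit.app X) = 𝟙 _ :=
        adjP.right_triangle_components X
      rw [h2]
      exact whe_id _
    have hXu : weakEquivalences D (adj.unit.app X) := by
      have : IsCofibrant ((S ⋙ P).obj X) := hPc (S.obj X)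
      have : IsCofibrant ((𝟭 D).obj X) := hXc
      have h1 := we_map adj hf' (adjP.counit.app X) hε
      rw [hw'] at h1
      refine (weakEquivalences D).of_precomp (adjP.counit.app X) _ hε ?_
      have h2 := adj.unit.naturality (adjP.counit.app X)
      dsimp at h2
      rw [h2]
      exact (weakEquivalences D).comp_mem _ _ (hK _) h1
    rw [hw']
    constructor
    · intro hfw
      exact (weakEquivalences D).comp_mem _ _ hXu hfw
    · intro hfw
      exact (weakEquivalences D).of_precomp _ _ hXu hfw

/-- The same, with a composite Quillen equivalence with simplicial sets. -/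
theorem isQuillenEq_of' (hm : ∀ K : SSet.{0}, Mono (initial.to K)) (h : IsModel cof w fib)
    (h' : IsModel cof' w' fib') (hw : w' = w.inverseImage R) (hf : fib' ≤ fib.inverseImage R)
    {F G : SSet.{0} ⥤ SSet.{0}} (a : F ⊣ G) {c : SSet.{0} ⥤ D} {M : D ⥤ SSet.{0}} (hc : c ⊣ M)
    (hq : IsQuillenEquivalence (a.comp hc) cof w)
    {cof'' : MorphismProperty E}
    (hq' : IsQuillenEquivalence (a.comp (hc.comp adj)) cof'' w') :
    IsQuillenEq adj cof w cof' w' := by
  refine isQuillenEq_of adj (a.comp hc) hm h h' hw hf hq (fun K => ?_)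
  have hid : w' (𝟙 (L.obj (c.obj (F.obj K)))) := by
    obtain ⟨M', h1, h2, h3⟩ := h'
    rw [← h2]
    exact (weakEquivalences E).id_mem _
  have h1 := (hq'.2 K (L.obj (c.obj (F.obj K))) (𝟙 _)).1 hid
  exact (congrArg (fun g => whe g) (unit_comp adj a hc K)).mp h1

end

end Vale.Agent.P213.H574
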