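import Vale.Agent.P213.Bdl.B14
import Vale.Agent.P213.H574.Quillen

/-!
The Thomason model structures attached to the subdivisions `Sd^k`, `k ≥ 2`.
-/

open CategoryTheory Limits HomotopicalAlgebra SSet.modelCategoryQuillen MorphismProperty

namespace Vale.Agent.P213.SX.H574M

open H574

theorem whe_eq' : SX.whe = P213.whe.{0} := St.whe_eq.symm

theorem whe_ex {X Y : SSet.{0}} (f : X ⟶ Y) : SX.whe (SSet.ex.map f) ↔ SX.whe f := by
  rw [whe_eq']
  exact P213.whe_ex_iff f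

theorem whe_sd {X Y : SSet.{0}} (f : X ⟶ Y) : SX.whe (SSet.sd.map f) ↔ SX.whe f := by
  rw [whe_eq']
  exact P213.whe_sd_iff f

theorem whe_exk (k : ℕ) {X Y : SSet.{0}} (f : X ⟶ Y) :
    SX.whe ((exk k).map f) ↔ SX.whe f := by
  induction k generalizing X Y with
  | zero => exact Iff.rfl
  | succ k ih => exact (ih (SSet.ex.map f)).trans (whe_ex f)

theorem whe_sdk (k : ℕ) {X Y : SSet.{0}} (f : X ⟶ Y) :
    SX.whe ((sdk k).map f) ↔ SX.whe f := by
  induction k with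
  | zero => exact Iff.rfl
  | succ k ih => exact (whe_sd ((sdk k).map f)).trans ih

theorem mono_sdk (k : ℕ) {X Y : SSet.{0}} (f : X ⟶ Y) (hf : Mono f) : Mono ((sdk k).map f) := by
  induction k with
  | zero => exact hf
  | succ k ih =>
    have := ih
    change Mono (SSet.sd.map ((sdk k).map f))
    infer_instance

theorem whe_comp {X Y Z : SSet.{0}} {f : X ⟶ Y} {g : Y ⟶ Z} (hf : SX.whe f) (hg : SX.whe g) :
    SX.whe (f ≫ g) := by
  rw [whe_eq'] at *
  exact P213.whe.comp_mem _ _ hf hg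

theorem whe_precomp {X Y Z : SSet.{0}} {f : X ⟶ Y} {g : Y ⟶ Z} (hf : SX.whe f) :
    SX.whe (f ≫ g) ↔ SX.whe g := by
  rw [whe_eq'] at *
  exact P213.whe.precomp_iff _ _ hf

theorem whe_unit_adjk (k : ℕ) (K : SSet.{0}) : SX.whe ((adjk k).unit.app K) := by
  induction k with
  | zero => exact whe_id K
  | succ k ih =>
    have e : (adjk (k + 1)).unit.app K =
        (adjk k).unit.app K ≫ (exk k).map (SSet.sdExAdjunction.unit.app ((sdk k).obj K)) := by
      change ((adjk k).comp SSet.sdExAdjunction).unit.app K = _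
      simp [Adjunction.comp]
    rw [e]
    refine whe_comp ih ((whe_exk k _).2 ?_)
    rw [whe_eq']
    exact P213.whe_unit_sdEx _

theorem exk_comm (k : ℕ) : SSet.ex ⋙ exk k = exk k ⋙ SSet.ex := by
  induction k with
  | zero => rfl
  | succ k ih => exact congrArg (fun F => SSet.ex ⋙ F) ih

instance preservesFiltered_exk (k : ℕ) :
    PreservesFilteredColimitsOfSize.{0, 0} (exk k) := by
  induction k with
  | zero =>
    change PreservesFilteredColimitsOfSize.{0, 0} (𝟭 SSet.{0})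
    exact ⟨fun _ _ _ => inferInstance⟩
  | succ k ih =>
    change PreservesFilteredColimitsOfSize.{0, 0} (SSet.ex ⋙ exk k)
    exact comp_preservesFilteredColimits _ _

section

variable {D : Type 1} [Category.{0} D] (N : D ⥤ SSet.{0})

theorem thFk_two : thFk N 2 = thF N := rfl

theorem thCk_two : thCk N 2 = thC N := rfl

theorem triv_iff (k : ℕ) {X Y : D} (f : X ⟶ Y) :
    (thFk N k f ∧ thW N f) ↔ I.rlp ((N ⋙ exk k).map f) := by
  have e : thW N f ↔ P213.whe ((N ⋙ exk k).map f) := by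
    rw [← whe_eq']
    exact (whe_exk k _).symm
  constructor
  · rintro ⟨h1, h2⟩
    exact rlpI_of_kanFib_of_whe _ h1 (e.1 h2)
  · intro h
    exact ⟨AS.kanFib_of_rlpI _ h, e.2 (rlpI_le_whe _ h)⟩

theorem thFk_le_succ (k : ℕ) : thFk N k ≤ thFk N (k + 1) := by
  intro X Y f hf
  change J.rlp ((N ⋙ (SSet.ex ⋙ exk k)).map f)
  rw [exk_comm]
  exact P213.kanFib_ex _ hf

theorem thFk_mono {k l : ℕ} (h : k ≤ l) : thFk N k ≤ thFk N l := by
  induction l, h using Nat.le_induction with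
  | base => exact le_rfl
  | succ l _ ih => exact ih.trans (thFk_le_succ N l)

theorem thCk_anti {k l : ℕ} (h : k ≤ l) : thCk N l ≤ thCk N k :=
  antitone_llp (inf_le_inf_right _ (thFk_mono N h))

variable {N}

theorem isModel_k [HasFiniteLimits D] [HasColimitsOfSize.{0, 0} D] {c : SSet.{0} ⥤ D}
    (adj : c ⊣ N) [PreservesFilteredColimitsOfSize.{0, 0} N]
    (h2 : IsModel (thC N) (thW N) (thF N)) (k : ℕ) (hk : 2 ≤ k) :
    IsModel (thCk N k) (thW N) (thFk N k) := by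
  have hp : PreservesFilteredColimitsOfSize.{0, 0} (N ⋙ exk k) :=
    comp_preservesFilteredColimits _ _
  have eW : thW N = P213.thW N := by
    unfold thW P213.thW
    rw [whe_eq']
  have i1 : (thW N).HasTwoOutOfThreeProperty := by
    rw [eW]
    exact inferInstanceAs (P213.whe.inverseImage N).HasTwoOutOfThreeProperty
  have i2 : (thW N).IsStableUnderRetracts := by
    rw [eW]
    exact inferInstanceAs (P213.whe.inverseImage N).IsStableUnderRetracts
  refine P213.transfer ((adjk k).comp adj) (thW N) (fun X Y f => triv_iff N k f) ?_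
  have h3 : (thFk N k).llp ≤ (thF N).llp := antitone_llp (thFk_mono N hk)
  refine h3.trans ?_
  obtain ⟨M, -, h4, h5⟩ := h2
  rw [← h4, ← h5, llp_eq_of_wfs (trivialCofibrations D) (fibrations D)]
  exact inf_le_right

theorem isProper_k {c : SSet.{0} ⥤ D} (adj : c ⊣ N)
    (h2 : IsProper (thC N) (thW N) (thF N)) (k : ℕ) (hk : 2 ≤ k) :
    IsProper (thCk N k) (thW N) (thFk N k) := by
  intro A B A' B' t l r b
  refine ⟨fun sq ht hl => (h2 _ _ _ _ _ _ _ _).1 sq (thCk_anti N hk _ ht) hl,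
    fun sq hb hr => ?_⟩
  have := adj.rightAdjoint_preservesLimits
  have := (adjk k).rightAdjoint_preservesLimits
  have sq' := (sq.flip.map N).map (exk k)
  have h1 := P213.isRightProper_sSet _ _ _ _ sq' hb
    (by rw [← whe_eq']; exact (whe_exk k _).2 hr)
  rw [← whe_eq'] at h1
  exact (whe_exk k _).1 h1

theorem unit_comp_k {c : SSet.{0} ⥤ D} (adj : c ⊣ N) {F G F₁ G₁ F₂ G₂ : SSet.{0} ⥤ SSet.{0}}
    (a : F ⊣ G) (b₁ : F₁ ⊣ G₁) (b₂ : F₂ ⊣ G₂) (K : SSet.{0}) {Y : D}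
    (f : c.obj (F₂.obj (F₁.obj (F.obj K))) ⟶ Y) :
    (((a.comp b₁).comp b₂).comp adj).unit.app K ≫ (N ⋙ (G₂ ⋙ (G₁ ⋙ G))).map f =
      a.unit.app K ≫
        G.map (((b₁.comp b₂).comp adj).unit.app (F.obj K) ≫ (N ⋙ (G₂ ⋙ G₁)).map f) := by
  simp [Adjunction.comp]

theorem isQuillenEquivalence_gen {c : SSet.{0} ⥤ D} (adj : c ⊣ N)
    {F G F₁ G₁ F₂ G₂ : SSet.{0} ⥤ SSet.{0}}
    (a : F ⊣ G) (b₁ : F₁ ⊣ G₁) (b₂ : F₂ ⊣ G₂) {cof cof' w : MorphismProperty D}
    (h2 : IsQuillenEquivalence ((b₁.comp b₂).comp adj) cof w)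
    (hF : ∀ {K L : SSet.{0}} (i : K ⟶ L), Mono i → Mono (F.map i))
    (hFw : ∀ {K L : SSet.{0}} (i : K ⟶ L), SX.whe i → SX.whe (F.map i))
    (hG : ∀ {K L : SSet.{0}} (i : K ⟶ L), SX.whe (G.map i) ↔ SX.whe i)
    (hu : ∀ K, SX.whe (a.unit.app K))
    (hc : ∀ {K L : SSet.{0}} (i : K ⟶ L), Mono i → cof' (c.map (F₂.map (F₁.map (F.map i))))) :
    IsQuillenEquivalence (((a.comp b₁).comp b₂).comp adj) cof' w := by
  refine ⟨fun K K' i hi => ⟨hc i hi, fun hw => (h2.1 _ _ (F.map i) (hF i hi)).2 (hFw i hw)⟩,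
    fun K Y f => ?_⟩
  have e := unit_comp_k adj a b₁ b₂ K f
  refine Iff.trans ?_ (congrArg (fun g => SX.whe g) e).to_iff.symm
  refine Iff.trans ?_ (whe_precomp (hu K)).symm
  exact (h2.2 (F.obj K) Y f).trans (hG _).symm

theorem isQuillenEquivalence_k {c : SSet.{0} ⥤ D} (adj : c ⊣ N)
    (h2 : IsQuillenEquivalence ((SSet.sdExAdjunction.comp SSet.sdExAdjunction).comp adj)
      (thC N) (thW N)) (k : ℕ) (hk : 2 ≤ k) :
    IsQuillenEquivalence ((adjk k).comp adj) (thCk N k) (thW N) := by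
  obtain ⟨j, rfl⟩ : ∃ j, k = j + 2 := ⟨k - 2, by omega⟩
  refine isQuillenEquivalence_gen adj (adjk j) SSet.sdExAdjunction SSet.sdExAdjunction h2
    (fun i hi => mono_sdk j i hi) (fun i hi => (whe_sdk j i).2 hi) (fun i => whe_exk j i)
    (whe_unit_adjk j) (fun i hi => ?_)
  intro X Y p hp
  have h1 := (triv_iff N (j + 2) p).1 hp
  rw [← SSet.rlp_monomorphisms] at h1
  exact (((adjk (j + 2)).comp adj).hasLiftingProperty_iff i p).2 (h1 i hi)

theorem isThomasonK [HasFiniteLimits D] [HasColimitsOfSize.{0, 0} D]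
    [PreservesFilteredColimitsOfSize.{0, 0} N] (h : IsThomason N) (k : ℕ) (hk : 2 ≤ k) :
    IsThomasonK N k := by
  obtain ⟨c, ⟨hc⟩⟩ := h.2.2.2.2.1
  refine ⟨isModel_k hc h.2.1 k hk, isProper_k hc h.2.2.1 k hk, fun c' h' => ⟨?_, ?_, ?_⟩⟩
  · exact isQuillenEquivalence_k h' (h.2.2.2.2.2 c' h').1 k hk
  · rw [rlp_map ((adjk k).comp h')]
    ext X Y f
    exact (triv_iff N k f).symm
  · exact rlp_map ((adjk k).comp h') J

end

end Vale.Agent.P213.SX.H574M
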