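import Vale.Agent.P213.H574.LoopN
import Vale.Agent.P213.H574.Defs

/-!
From loop-free nerves to loop-free strict `n`-categories.
-/

open CategoryTheory Simplicial Opposite

namespace Vale.Agent.P213.SX.H574M

open H574 LF574 CAUtil

attribute [local instance] opsOf

/-- The oriental has a top cell. -/
theorem exists_top (m : ℕ) : ∃ z : SX.O m, ∀ a, z.coef a Finset.univ = 1 := by
  let s := St.mkS (Finset.univ : Finset (Fin (m + 1))) Finset.univ_nonempty
  let c := (simplexSteiner (Fin (m + 1))).atom s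
  refine ⟨ofO ((St.tabEquiv m).symm c), fun a => ?_⟩
  change (St.ev (c.val a) Finset.univ).toNat = 1
  have h1 : St.ev (c.val a) Finset.univ = 1 := by
    unfold St.ev
    rw [dif_pos Finset.univ_nonempty]
    exact (simplexSteiner (Fin (m + 1))).atom_self a s
  rw [h1]
  rfl

theorem exists_push {k m : ℕ} (θ : ⦋k⦌ ⟶ ⦋m⦌) (x : SX.O k) : ∃ y : SX.O m,
    ∀ a t, y.coef a t = ∑ u with u.image θ.toOrderHom = t ∧ u.card = t.card, x.coef a u := by
  obtain ⟨y, hy⟩ := St.exists_push θ (toO x)
  exact ⟨ofO y, hy⟩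

section

variable {n : ℕ∞} {N : NCat n ⥤ SSet.{0}} (X : NCat n)

/-- A strict functor out of an oriental with equal values at the vertices is constant, if the
nerve is loop-free. -/
theorem simplex_const (hN : IsStreetNerve id (fun _ _ => Fun.toFun) N) (hL : LFS (N.obj X))
    (m : ℕ) (f : SX.O m → X.C) (hf : IsSimplex X f) (p : X.C)
    (hp : ∀ (θ : ⦋0⦌ ⟶ ⦋m⦌) (x : SX.O 0) (y : SX.O m),
      (∀ a t, y.coef a t = ∑ u with u.image θ.toOrderHom = t ∧ u.card = t.card, x.coef a u) →
      f y = p) (z : SX.O m) : f z = p := by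
  obtain ⟨ev, h1, h2, h3⟩ := hN
  obtain ⟨s, -, hs⟩ := (h1 X m).surjOn hf
  have hv : ∀ (θ : ⦋0⦌ ⟶ ⦋m⦌) (x : SX.O 0), ev X 0 (SSet.stdSimplex.map θ ≫ s) x = p := by
    intro θ x
    obtain ⟨y, hy⟩ := exists_push θ x
    rw [h3 X m 0 θ s x y hy, hs]
    exact hp θ x y hy
  have hveq : ∀ θ θ' : ⦋0⦌ ⟶ ⦋m⦌, SSet.stdSimplex.map θ ≫ s = SSet.stdSimplex.map θ' ≫ s := by
    intro θ θ'
    refine (h1 X 0).injOn (Set.mem_univ _) (Set.mem_univ _) ?_
    funext x
    rw [hv, hv]
  have h4 : ∀ i, SSet.yonedaEquiv.symm (vtx (SSet.yonedaEquiv s) i) =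
      SSet.stdSimplex.map (SimplexCategory.const ⦋0⦌ ⦋m⦌ i) ≫ s := by
    intro i
    refine (St.yonedaEquiv_symm_mapAux (N.obj X) (SimplexCategory.const ⦋0⦌ ⦋m⦌ i) _).trans ?_
    rw [Equiv.symm_apply_apply]
  have h5 := hL.1 m (SSet.yonedaEquiv s) (fun i => by
    apply SSet.yonedaEquiv.symm.injective
    rw [h4, h4]
    exact hveq _ _)
  have h6 : s = SSet.stdSimplex.map (SimplexCategory.const ⦋m⦌ ⦋0⦌ 0) ≫
      (SSet.stdSimplex.map (SimplexCategory.const ⦋0⦌ ⦋m⦌ 0) ≫ s) := by
    rw [← h4]
    have h7 := congrArg SSet.yonedaEquiv.symm h5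
    rw [Equiv.symm_apply_apply] at h7
    exact h7.trans (St.yonedaEquiv_symm_mapAux (N.obj X) (SimplexCategory.const ⦋m⦌ ⦋0⦌ 0) _)
  obtain ⟨z', hz'⟩ := exists_push (SimplexCategory.const ⦋m⦌ ⦋0⦌ 0) z
  rw [← hs, h6, h3 X 0 m (SimplexCategory.const ⦋m⦌ ⦋0⦌ 0) _ z z' hz']
  exact hv _ _

/-- `c` is a cell all of whose `k`-sources and `k`-targets for `k ≤ j` are the object `p`, and
whose dimension is at most `j + 1`. -/
structure Endo (p : X.C) (j : ℕ) (c : X.C) : Prop where
  low : ∀ a k, k ≤ j → X.d a k c = p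
  high : ∀ a k, j < k → X.d a k c = c

variable {X}

/-- Powers. -/
noncomputable def pw (p x : X.C) (r : ℕ) : X.C :=
  Nat.rec (motive := fun _ => X.C) p (fun _ y => X.cmp 0 y x) r

theorem dd0 {p : X.C} (hp : X.d false 0 p = p) (a : Bool) (k : ℕ) : X.d a k p = p := by
  rw [← hp, X.dd, if_neg (Nat.not_lt_zero k)]

variable {p : X.C} (hp : X.d false 0 p = p) {j : ℕ}

include hp

theorem endo_p : Endo X p j p := ⟨fun a k _ => dd0 hp a k, fun a k _ => dd0 hp a k⟩

theorem cmp_pp (k : ℕ) : X.cmp k p p = p := by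
  have h := X.idl k p
  rwa [dd0 hp] at h

omit hp in
theorem cmp_cp {c : X.C} (hc : Endo X p j c) {k : ℕ} (hk : k ≤ j) : X.cmp k c p = c := by
  have h := X.idr k c
  rwa [hc.low true k hk] at h

omit hp in
theorem cmp_pc {c : X.C} (hc : Endo X p j c) {k : ℕ} (hk : k ≤ j) : X.cmp k p c = c := by
  have h := X.idl k c
  rwa [hc.low false k hk] at h

theorem Endo.cmp {c c' : X.C} (hc : Endo X p j c) (hc' : Endo X p j c') :
    Endo X p j (X.cmp 0 c c') := by
  have h0 : X.d true 0 c = X.d false 0 c' := by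
    rw [hc.low _ _ (Nat.zero_le _), hc'.low _ _ (Nat.zero_le _)]
  refine ⟨fun a k hk => ?_, fun a k hk => ?_⟩
  · rcases Nat.eq_zero_or_pos k with rfl | hk0
    · cases a
      · rw [X.src 0 _ _ h0, hc.low _ _ hk]
      · rw [X.tgt 0 _ _ h0, hc'.low _ _ hk]
    · rw [X.dcomp a k 0 _ _ hk0 h0, hc.low _ _ hk, hc'.low _ _ hk, cmp_pp hp]
  · rw [X.dcomp a k 0 _ _ (by omega) h0, hc.high _ _ hk, hc'.high _ _ hk]

theorem endo_pw {x : X.C} (hx : Endo X p j x) (r : ℕ) : Endo X p j (pw p x r) := by
  induction r with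
  | zero => exact endo_p hp
  | succ r ih => exact Endo.cmp hp ih hx

/-- The Eckmann-Hilton argument. -/
theorem eckmann_hilton {c c' : X.C} (hc : Endo X p j c) (hc' : Endo X p j c') {k : ℕ}
    (hk : k ≤ j) : X.cmp k c c' = X.cmp 0 c c' := by
  rcases Nat.eq_zero_or_pos k with rfl | hk0
  · rfl
  · have h := X.inter 0 k c p p c' hk0 (by rw [hc.low _ _ hk, dd0 hp])
      (by rw [hc'.low _ _ hk, dd0 hp]) (by rw [hc.low _ _ (Nat.zero_le _), dd0 hp])
    rw [cmp_cp hc hk, cmp_pc hc' hk, cmp_cp hc (Nat.zero_le _),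
      cmp_pc hc' (Nat.zero_le _)] at h
    exact h.symm

theorem pw_add {x : X.C} (hx : Endo X p j x) (r s : ℕ) :
    pw p x (r + s) = X.cmp 0 (pw p x r) (pw p x s) := by
  induction s with
  | zero => exact (cmp_cp (endo_pw hp hx r) (Nat.zero_le _)).symm
  | succ s ih =>
    change X.cmp 0 (pw p x (r + s)) x = X.cmp 0 (pw p x r) (X.cmp 0 (pw p x s) x)
    rw [ih, X.asc]
    · rw [(endo_pw hp hx r).low _ _ (Nat.zero_le _), (endo_pw hp hx s).low _ _ (Nat.zero_le _)]
    · rw [(endo_pw hp hx s).low _ _ (Nat.zero_le _), hx.low _ _ (Nat.zero_le _)]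

omit hp in
theorem coef_univ (m : ℕ) (z : SX.O m) (a b : Bool) :
    z.coef a Finset.univ = z.coef b Finset.univ := by
  have h : z.coef true Finset.univ = z.coef false Finset.univ := by
    have h1 := z.bdry true Finset.univ Finset.univ_nonempty.ne_empty
    rw [Finset.compl_univ, Finset.sum_empty] at h1
    omega
  cases a <;> cases b <;> simp [h]

/-- The strict functor from the oriental which sends the top cell to `x`. -/
theorem isSimplex_pw {x : X.C} (hx : Endo X p j x) :
    IsSimplex X (fun z : SX.O (j + 1) => pw p x (z.coef false Finset.univ)) := by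
  have hcard : (Finset.univ : Finset (Fin (j + 1 + 1))).card = j + 2 := by simp
  refine ⟨fun a k z y hzy => ?_, fun k z y v w hw1 hw2 hv => ?_⟩
  · have h1 := hzy false Finset.univ
    rw [hcard] at h1
    change pw p x (y.coef false Finset.univ) = X.d a k (pw p x (z.coef false Finset.univ))
    rcases Nat.lt_or_ge j k with hk | hk
    · rw [(endo_pw hp hx _).high a k hk, h1]
      split_ifs with h2 h3
      · rfl
      · rw [coef_univ (j + 1) z a false]
      · omega
    · rw [(endo_pw hp hx _).low a k hk, h1, if_neg (by omega), if_neg (by omega)]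
      rfl
  · have h1 := hw1 false Finset.univ
    have h2 := hw2 false Finset.univ
    have h3 := hv false Finset.univ
    rw [hcard] at h1 h2
    change pw p x (v.coef false Finset.univ) = X.cmp k (pw p x (z.coef false Finset.univ))
      (pw p x (y.coef false Finset.univ))
    rcases Nat.lt_or_ge j k with hk | hk
    · have e1 : w.coef false Finset.univ = z.coef false Finset.univ := by
        rw [h1]
        split_ifs with h4 h5
        · rfl
        · rw [coef_univ (j + 1) z true false]
        · omega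
      have e2 : w.coef false Finset.univ = y.coef false Finset.univ := by
        rw [h2]
        split_ifs with h4 h5
        · rfl
        · rfl
        · omega
      have e3 : v.coef false Finset.univ = z.coef false Finset.univ := by omega
      rw [e3, ← e2, e1]
      have h6 := X.idl k (pw p x (z.coef false Finset.univ))
      rw [(endo_pw hp hx _).high _ _ hk] at h6
      exact h6.symm
    · rw [if_neg (by omega), if_neg (by omega)] at h1 h2
      have e3 : v.coef false Finset.univ =
          z.coef false Finset.univ + y.coef false Finset.univ := by omega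
      rw [e3, pw_add hp hx, eckmann_hilton hp (endo_pw hp hx _) (endo_pw hp hx _) hk]

/-- A cell with trivial boundary is trivial. -/
theorem endo_eq (hN : IsStreetNerve id (fun _ _ => Fun.toFun) N) (hL : LFS (N.obj X))
    {x : X.C} (hx : Endo X p j x) : x = p := by
  obtain ⟨z, hz⟩ := exists_top (j + 1)
  have h := simplex_const X hN hL (j + 1) _ (isSimplex_pw hp hx) p (fun θ v y hy => ?_) z
  · change pw p x (z.coef false Finset.univ) = p at h
    rw [hz] at h
    change X.cmp 0 p x = p at h
    rwa [cmp_pc hx (Nat.zero_le _)] at h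
  · rw [hy, Finset.sum_eq_zero]
    · rfl
    · intro u hu
      exfalso
      rw [Finset.mem_filter] at hu
      have h1 := hu.2.2
      have h2 := Finset.card_le_univ u
      simp at h1 h2
      omega

omit hp in
/-- Cells with equal `0`-source and `0`-target are objects. -/
theorem loop_eq (hN : IsStreetNerve id (fun _ _ => Fun.toFun) N) (hL : LFS (N.obj X)) (j : ℕ) :
    ∀ x : X.C, X.d false j x = x → X.d false 0 x = X.d true 0 x → X.d false 0 x = x := by
  induction j with
  | zero => exact fun x hx _ => hx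
  | succ j ih =>
    intro x hx h0
    have hp : X.d false 0 (X.d false 0 x) = X.d false 0 x := by
      rw [X.dd, if_neg (lt_irrefl 0)]
    have key : ∀ a, X.d a j x = X.d false 0 x := by
      intro a
      have h1 := ih (X.d a j x) (by rw [X.dd, if_neg (lt_irrefl j)])
      rcases Nat.eq_zero_or_pos j with rfl | hj
      · cases a
        · rfl
        · exact h0.symm
      · rw [X.dd, if_pos hj, X.dd, if_pos hj] at h1
        exact (h1 h0).symm
    refine (endo_eq hp hN hL (j := j) ⟨fun a k hk => ?_, fun a k hk => ?_⟩).symm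
    · rcases hk.lt_or_eq with hk | rfl
      · have h1 : X.d a k x = X.d a k (X.d false j x) := by rw [X.dd, if_pos hk]
        rw [h1, key, dd0 hp]
      · exact key a
    · rw [← hx, X.dd, if_neg (by omega)]

omit hp in
/-- The three cells of the first oriental. -/
theorem O1_cases (z : SX.O 1) :
    (z.coef false Finset.univ = 0 ∧ z.coef false {0} = 1 ∧ z.coef true {0} = 1) ∨
    (z.coef false Finset.univ = 0 ∧ z.coef false {0} = 0 ∧ z.coef true {0} = 0) ∨
    (z.coef false Finset.univ = 1 ∧ z.coef false {0} = 1 ∧ z.coef true {0} = 0) := by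
  have h1 := z.aug false
  have h2 := z.aug true
  have h3 := z.bdry false {0} (by decide)
  have h4 : ({0} : Finset (Fin (1 + 1)))ᶜ = {1} := by decide
  have h5 : insert (1 : Fin (1 + 1)) ({0} : Finset (Fin (1 + 1))) = Finset.univ := by decide
  have h6 : (({0} : Finset (Fin (1 + 1))).filter (· < 1)).card = 1 := by decide
  rw [h4, Finset.sum_singleton, h5, h6] at h3
  rw [Fin.sum_univ_two] at h1 h2
  omega

open Classical in
/-- The strict functor from the first oriental attached to a `1`-cell. -/
noncomputable def edgeF (x : X.C) (z : SX.O 1) : X.C :=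
  if z.coef false Finset.univ = 0 then
    (if z.coef false {0} = 0 then X.d true 0 x else X.d false 0 x) else x

omit hp in
theorem edge_high {x : X.C} (hx : X.d false 1 x = x) (z : SX.O 1) (a : Bool) {k : ℕ}
    (hk : 1 ≤ k) : X.d a k (edgeF x z) = edgeF x z := by
  unfold edgeF
  split_ifs
  · rw [X.dd, if_neg (by omega)]
  · rw [X.dd, if_neg (by omega)]
  · rw [← hx, X.dd, if_neg (by omega)]

omit hp in
theorem edgeF_congr {x : X.C} {z y : SX.O 1} (h1 : z.coef false Finset.univ = y.coef false Finset.univ)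
    (h2 : z.coef false {0} = y.coef false {0}) : edgeF x z = edgeF x y := by
  unfold edgeF
  rw [h1, h2]

omit hp in
theorem isSimplex_edge {x : X.C} (hx : X.d false 1 x = x) : IsSimplex X (edgeF x) := by
  have hc1 : (Finset.univ : Finset (Fin (1 + 1))).card = 2 := rfl
  have hc2 : ({0} : Finset (Fin (1 + 1))).card = 1 := rfl
  refine ⟨fun a k z y hzy => ?_, fun k z y v w hw1 hw2 hv => ?_⟩
  · have h1 := hzy false Finset.univ
    have h2 := hzy false {0}
    rw [hc1] at h1
    rw [hc2] at h2
    rcases Nat.eq_zero_or_pos k with rfl | hk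
    · rw [if_neg (by omega), if_neg (by omega)] at h1
      rw [if_neg (by omega), if_pos rfl] at h2
      unfold edgeF
      rw [h1, h2, if_pos rfl]
      rcases O1_cases z with ⟨e1, e2, e3⟩ | ⟨e1, e2, e3⟩ | ⟨e1, e2, e3⟩ <;> cases a <;>
        simp [e1, e2, e3, X.dd]
    · rw [edge_high hx z a hk]
      refine edgeF_congr ?_ ?_
      · rw [h1]
        split_ifs with h3 h4
        · rfl
        · exact coef_univ 1 z a false
        · omega
      · rw [h2, if_pos (by omega)]
  · have h1 := hw1 false Finset.univ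
    have h2 := hw2 false Finset.univ
    have h3 := hw1 false {0}
    have h4 := hw2 false {0}
    have h5 := hv false Finset.univ
    have h6 := hv false {0}
    have h7 := coef_univ 1 z true false
    rw [hc1] at h1 h2
    rw [hc2] at h3 h4
    rcases Nat.eq_zero_or_pos k with rfl | hk
    · rw [if_neg (by omega), if_neg (by omega)] at h1 h2
      rw [if_neg (by omega), if_pos rfl] at h3 h4
      have i1 := X.idl 0 x
      have i2 := X.idr 0 x
      have i3 := X.idl 0 (X.d false 0 x)
      have i4 := X.idl 0 (X.d true 0 x)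
      rw [X.dd, if_neg (by omega)] at i3 i4
      unfold edgeF
      rcases O1_cases z with ⟨e1, e2, e3⟩ | ⟨e1, e2, e3⟩ | ⟨e1, e2, e3⟩ <;>
      rcases O1_cases y with ⟨f1, f2, f3⟩ | ⟨f1, f2, f3⟩ | ⟨f1, f2, f3⟩ <;>
      first
      | omega
      | (have g1 : v.coef false Finset.univ = 0 := by omega
         have g2 : v.coef false {0} = 0 := by omega
         simp [e1, e2, f1, f2, g1, g2, i1, i2, i3, i4])
      | (have g1 : v.coef false Finset.univ = 0 := by omega
         have g2 : v.coef false {0} = 1 := by omega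
         simp [e1, e2, f1, f2, g1, g2, i1, i2, i3, i4])
      | (have g1 : v.coef false Finset.univ = 1 := by omega
         simp [e1, e2, f1, f2, g1, i1, i2, i3, i4])
    · rw [if_pos (by omega)] at h3 h4
      have e1 : w.coef false Finset.univ = z.coef false Finset.univ := by
        rw [h1]
        split_ifs with h8 h9
        · rfl
        · exact h7
        · omega
      have e2 : w.coef false Finset.univ = y.coef false Finset.univ := by
        rw [h2]
        split_ifs with h8 h9
        · rfl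
        · rfl
        · omega
      have e3 : edgeF x y = edgeF x z := edgeF_congr (by omega) (by omega)
      have e4 : edgeF x v = edgeF x z := edgeF_congr (by omega) (by omega)
      rw [e3, e4]
      have h8 := X.idl k (edgeF x z)
      rw [edge_high hx z false hk] at h8
      exact h8.symm

omit hp in
theorem push_edge (i : Fin 2) (v : SX.O 0) (y : SX.O 1)
    (hy : ∀ a t, y.coef a t = ∑ u with u.image
      (SimplexCategory.const ⦋0⦌ ⦋1⦌ i).toOrderHom = t ∧ u.card = t.card, v.coef a u) :
    y.coef false Finset.univ = 0 ∧ y.coef false {0} = if i = 0 then 1 else 0 := by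
  have h1 := hy false Finset.univ
  have h2 := hy false {0}
  have h3 := v.aug false
  rw [Fin.sum_univ_one] at h3
  have k1 : ∀ i : Fin 2, (Finset.univ.filter fun u : Finset (Fin (0 + 1)) => u.image
      (SimplexCategory.const ⦋0⦌ ⦋1⦌ i).toOrderHom = (Finset.univ : Finset (Fin (1 + 1))) ∧
        u.card = (Finset.univ : Finset (Fin (1 + 1))).card) = ∅ := by
    decide
  refine ⟨by rw [h1, k1 i, Finset.sum_empty], ?_⟩
  have hcases : ∀ t : Fin 2, t = 0 ∨ t = 1 := by decide
  rcases hcases i with rfl | rfl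
  · have k2 : (Finset.univ.filter fun u : Finset (Fin (0 + 1)) => u.image
        (SimplexCategory.const ⦋0⦌ ⦋1⦌ (0 : Fin 2)).toOrderHom = ({0} : Finset (Fin (1 + 1))) ∧
          u.card = ({0} : Finset (Fin (1 + 1))).card) = {{0}} := by decide
    rw [h2, k2, Finset.sum_singleton, h3, if_pos rfl]
  · have k2 : (Finset.univ.filter fun u : Finset (Fin (0 + 1)) => u.image
        (SimplexCategory.const ⦋0⦌ ⦋1⦌ (1 : Fin 2)).toOrderHom = ({0} : Finset (Fin (1 + 1))) ∧
          u.card = ({0} : Finset (Fin (1 + 1))).card) = ∅ := by decide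
    rw [h2, k2, Finset.sum_empty, if_neg (by decide)]

omit hp in
theorem cycle_eq (hN : IsStreetNerve id (fun _ _ => Fun.toFun) N) (hL : LFS (N.obj X))
    (x y : X.C) (h1 : X.d true 0 x = X.d false 0 y) (h2 : X.d true 0 y = X.d false 0 x) :
    X.d false 0 x = X.d true 0 x := by
  obtain ⟨ev, b1, b2, b3⟩ := hN
  have hx : X.d false 1 (X.d false 1 x) = X.d false 1 x := by rw [X.dd, if_neg (lt_irrefl 1)]
  have hy : X.d false 1 (X.d false 1 y) = X.d false 1 y := by rw [X.dd, if_neg (lt_irrefl 1)]
  obtain ⟨s, -, hs⟩ := (b1 X 1).surjOn (isSimplex_edge hx)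
  obtain ⟨s', -, hs'⟩ := (b1 X 1).surjOn (isSimplex_edge hy)
  have hv : ∀ (r : Smp (N.obj X) 1) (w : X.C), ev X 1 r = edgeF (X.d false 1 w) →
      ∀ i v, ev X 0 (SSet.stdSimplex.map (SimplexCategory.const ⦋0⦌ ⦋1⦌ i) ≫ r) v =
        if i = 0 then X.d false 0 w else X.d true 0 w := by
    intro r w hr i v
    obtain ⟨z, hz⟩ := exists_push (SimplexCategory.const ⦋0⦌ ⦋1⦌ i) v
    rw [b3 X 1 0 _ r v z hz, hr]
    obtain ⟨g1, g2⟩ := push_edge i v z hz
    unfold edgeF
    rw [g1, if_pos rfl, X.dd, if_pos Nat.zero_lt_one, X.dd, if_pos Nat.zero_lt_one]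
    by_cases c : i = 0
    · rw [if_pos c] at g2
      rw [g2, if_neg Nat.one_ne_zero, if_pos c]
    · rw [if_neg c] at g2
      rw [g2, if_pos rfl, if_neg c]
  have h4 : ∀ (r : Smp (N.obj X) 1) i, SSet.yonedaEquiv.symm (vtx (SSet.yonedaEquiv r) i) =
      SSet.stdSimplex.map (SimplexCategory.const ⦋0⦌ ⦋1⦌ i) ≫ r := by
    intro r i
    refine (St.yonedaEquiv_symm_mapAux (N.obj X) (SimplexCategory.const ⦋0⦌ ⦋1⦌ i) _).trans ?_
    rw [Equiv.symm_apply_apply]
  have h5 := hL.2 (SSet.yonedaEquiv s) (SSet.yonedaEquiv s') (by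
      apply SSet.yonedaEquiv.symm.injective
      rw [h4, h4]
      refine (b1 X 0).injOn (Set.mem_univ _) (Set.mem_univ _) ?_
      funext v
      rw [hv s x hs, hv s' y hs']
      exact h1) (by
      apply SSet.yonedaEquiv.symm.injective
      rw [h4, h4]
      refine (b1 X 0).injOn (Set.mem_univ _) (Set.mem_univ _) ?_
      funext v
      rw [hv s x hs, hv s' y hs']
      exact h2)
  have h6 := congrArg SSet.yonedaEquiv.symm h5
  rw [h4, h4] at h6
  obtain ⟨v⟩ : Nonempty (SX.O 0) := ⟨(exists_top 0).choose⟩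
  have h7 := congrArg (fun r => ev X 0 r v) h6
  simp only [hv s x hs] at h7
  exact h7

omit hp in
/-- Loop-free nerves give loop-free categories. -/
theorem isLoopFree (hN : IsStreetNerve id (fun _ _ => Fun.toFun) N) (hL : LFS (N.obj X))
    (x y : X.C) (h1 : X.d true 0 x = X.d false 0 y) (h2 : X.d true 0 y = X.d false 0 x) :
    X.d false 0 x = x := by
  obtain ⟨j, hj⟩ := X.fin x
  exact loop_eq hN hL j x hj (cycle_eq hN hL x y h1 h2)

end

end Vale.Agent.P213.SX.H574M
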