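import Vale.Agent.P213.Bdl.B14

/-!
Cofibrant objects of the Thomason model structures have loop-free nerves.
-/

open CategoryTheory HomotopicalAlgebra Simplicial MonoidalCategory Limits MorphismProperty
open Opposite SSet.modelCategoryQuillen

universe v u

namespace Vale.Agent.P213.LF574

open CAUtil CAExt

/-- The constant simplex at a vertex. -/
def cst {K : SSet.{u}} (n : ℕ) (v : K _⦋0⦌) : K _⦋n⦌ :=
  K.map (SimplexCategory.const ⦋n⦌ ⦋0⦌ 0).op v

/-- All simplices with equal vertices are constant, and there are no cycles of two edges. -/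
def LFS (K : SSet.{u}) : Prop :=
  (∀ (n : ℕ) (x : K _⦋n⦌), (∀ i, vtx x i = vtx x 0) → x = cst n (vtx x 0)) ∧
  ∀ e e' : K _⦋1⦌, vtx e 1 = vtx e' 0 → vtx e' 1 = vtx e 0 → vtx e 0 = vtx e 1

lemma app_cst {K L : SSet.{u}} (f : K ⟶ L) (n : ℕ) (v : K _⦋0⦌) :
    f.app _ (cst n v) = cst n (f.app _ v) :=
  NatTrans.naturality_apply f _ v

lemma inj_app {K L : SSet.{u}} (f : K ⟶ L) [Mono f] {n : SimplexCategoryᵒᵖ} {x y : K.obj n}
    (h : f.app n x = f.app n y) : x = y := by
  have : Mono (f.app n) := inferInstance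
  exact (mono_iff_injective _).1 this h

lemma LFS.of_mono {K L : SSet.{u}} (f : K ⟶ L) [Mono f] (h : LFS L) : LFS K := by
  refine ⟨fun n x hx => ?_, fun e e' h1 h2 => ?_⟩
  · apply inj_app f
    rw [app_cst, app_vtx]
    apply h.1
    intro i
    rw [← app_vtx, ← app_vtx, hx i]
  · apply inj_app f
    rw [app_vtx, app_vtx]
    refine h.2 (f.app _ e) (f.app _ e') ?_ ?_
    · rw [← app_vtx, ← app_vtx, h1]
    · rw [← app_vtx, ← app_vtx, h2]

lemma LFS.of_isEmpty {K : SSet.{u}} (h : K _⦋0⦌ → False) : LFS K :=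
  ⟨fun _ x _ => (h (vtx x 0)).elim, fun e _ _ _ => (h (vtx e 0)).elim⟩

lemma val_vtx {K : SSet.{u}} (π : K ⟶ Δ[1]) {n : ℕ} (x : K _⦋n⦌) (i : Fin (n + 1)) :
    (π.app _ x : (Δ[1] _⦋n⦌ : Type u)) i = (π.app _ (vtx x i) : (Δ[1] _⦋0⦌ : Type u)) 0 := by
  rw [app_vtx]
  rfl

lemma val_le {K : SSet.{u}} (π : K ⟶ Δ[1]) (e : K _⦋1⦌) :
    (π.app _ (vtx e 0) : (Δ[1] _⦋0⦌ : Type u)) 0 ≤
      (π.app _ (vtx e 1) : (Δ[1] _⦋0⦌ : Type u)) 0 := by
  rw [← val_vtx, ← val_vtx]
  exact SSet.stdSimplex.monotone_apply (π.app _ e : (Δ[1] _⦋1⦌ : Type u))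
    (Fin.zero_le (1 : Fin 2))

lemma LFS.of_fibers {K F₀ F₁ : SSet.{u}} {k₀ : F₀ ⟶ K} {g₀ : F₀ ⟶ Δ[0]} {k₁ : F₁ ⟶ K}
    {g₁ : F₁ ⟶ Δ[0]} {π : K ⟶ Δ[1]}
    (pb₀ : IsPullback k₀ g₀ π (SSet.stdSimplex.δ (1 : Fin 2) : Δ[0] ⟶ Δ[1]))
    (pb₁ : IsPullback k₁ g₁ π (SSet.stdSimplex.δ (0 : Fin 2) : Δ[0] ⟶ Δ[1]))
    (h₀ : LFS F₀) (h₁ : LFS F₁) : LFS K := by
  have hcases : ∀ t : Fin 2, t = 0 ∨ t = 1 := by decide
  have m₀ : Mono k₀ := mono_of_fiber pb₀
  have m₁ : Mono k₁ := mono_of_fiber pb₁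
  refine ⟨fun n x hx => ?_, fun e e' h1 h2 => ?_⟩
  · rcases hcases ((π.app _ (vtx x 0) : (Δ[1] _⦋0⦌ : Type u)) 0) with h0 | h1
    · obtain ⟨w, rfl⟩ := exists_of_fiber_zero pb₀ x (fun i => by rw [val_vtx, hx i, h0])
      have h3 : w = cst n (vtx w 0) := h₀.1 n w (fun i => by
        apply inj_app k₀
        rw [app_vtx, app_vtx, hx i])
      rw [← app_vtx, ← app_cst, ← h3]
    · obtain ⟨w, rfl⟩ := exists_of_fiber_one pb₁ x (fun i => by rw [val_vtx, hx i, h1])
      have h3 : w = cst n (vtx w 0) := h₁.1 n w (fun i => by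
        apply inj_app k₁
        rw [app_vtx, app_vtx, hx i])
      rw [← app_vtx, ← app_cst, ← h3]
  · have a1 := val_le π e
    have a2 := val_le π e'
    rw [← h1, h2] at a2
    have a3 := le_antisymm a1 a2
    rcases hcases ((π.app _ (vtx e 0) : (Δ[1] _⦋0⦌ : Type u)) 0) with h0 | h0
    · obtain ⟨w, rfl⟩ := exists_of_fiber_zero pb₀ e (fun i => by
        rw [val_vtx]
        rcases hcases i with rfl | rfl
        · exact h0
        · rw [← a3]; exact h0)
      obtain ⟨w', rfl⟩ := exists_of_fiber_zero pb₀ e' (fun i => by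
        rw [val_vtx]
        rcases hcases i with rfl | rfl
        · rw [← h1, ← a3]; exact h0
        · rw [h2]; exact h0)
      rw [← app_vtx, ← app_vtx]
      refine congrArg _ (h₀.2 w w' ?_ ?_)
      · apply inj_app k₀
        rw [app_vtx, app_vtx, h1]
      · apply inj_app k₀
        rw [app_vtx, app_vtx, h2]
    · obtain ⟨w, rfl⟩ := exists_of_fiber_one pb₁ e (fun i => by
        rw [val_vtx]
        rcases hcases i with rfl | rfl
        · exact h0
        · rw [← a3]; exact h0)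
      obtain ⟨w', rfl⟩ := exists_of_fiber_one pb₁ e' (fun i => by
        rw [val_vtx]
        rcases hcases i with rfl | rfl
        · rw [← h1, ← a3]; exact h0
        · rw [h2]; exact h0)
      rw [← app_vtx, ← app_vtx]
      refine congrArg _ (h₁.2 w w' ?_ ?_)
      · apply inj_app k₁
        rw [app_vtx, app_vtx, h1]
      · apply inj_app k₁
        rw [app_vtx, app_vtx, h2]

lemma LFS.point : LFS (Δ[0] : SSet.{u}) := by
  have h : ∀ {n : ℕ} (x y : (Δ[0] : SSet.{u}) _⦋n⦌), x = y := fun x y => by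
    apply SSet.stdSimplex.ext
    intro i
    exact Subsingleton.elim (α := Fin 1) _ _
  exact ⟨fun n x _ => h _ _, fun e e' _ _ => h _ _⟩

section

variable {D : Type (u + 1)} [Category.{v} D] {c : SSet.{u} ⥤ D} {N : D ⥤ SSet.{u}}
  {adj : c ⊣ N}

lemma isEmpty_vertices [HasPullbacks D] (hA : ModelAxioms adj) {X : D} (hX : IsInitial X) :
    (N.obj X) _⦋0⦌ → False := by
  intro z
  have := hA.unit_empty
  let z' : (⊥_ SSet.{u}) _⦋0⦌ := (inv (adj.unit.app (⊥_ SSet.{u}))).app _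
    ((N.map (hX.to (c.obj (⊥_ SSet.{u})))).app _ z)
  exact (((initial.to (nerve (PEmpty.{u + 1}))).app _ z').obj 0).elim

/-- The nerve of `c` of the nerve of a finite poset is loop-free. -/
lemma lfs_unit [HasPullbacks D] (hA : ModelAxioms adj) : ∀ (n : ℕ) (P : Type u) [PartialOrder P]
    [Finite P], Nat.card P = n → LFS (N.obj (c.obj (nerve P))) := by
  intro n
  induction n using Nat.strong_induction_on with
  | _ n ih =>
  intro P _ _ hn
  rcases isEmpty_or_nonempty P with hP | hP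
  · refine LFS.of_isEmpty (fun z => ?_)
    obtain ⟨p, -⟩ := vert_unit hA _ P rfl z
    exact hP.elim (p.obj 0)
  · obtain ⟨p₀, hp₀⟩ := exists_minimal_of_wellFoundedLT (fun _ : P => True)
      ⟨Classical.arbitrary P, trivial⟩
    have hmin : ∀ q : P, q ≤ p₀ → q = p₀ := fun q hq => le_antisymm hq (hp₀.2 trivial hq)
    have hT : IsLowerSet ({p₀} : Set P) := by
      rintro x y hyx hx
      rw [Set.mem_singleton_iff] at hx
      subst hx
      exact hmin y hyx
    have sq : IsPushout (c.map (nvMap (subIncl (∅ : Set P)))) (𝟙 (c.obj (nerve (∅ : Set P))))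
        (𝟙 (c.obj (nerve P))) (c.map (nvMap (subIncl (∅ : Set P)))) :=
      IsPushout.of_vert_isIso ⟨by simp⟩
    have sq' : IsPushout (c.map (nvMap (subIncl₂ (Set.empty_subset ({p₀} : Set P)))))
        (𝟙 (c.obj (nerve (∅ : Set P)))) (𝟙 (c.obj (nerve ({p₀} : Set P))))
        (c.map (nvMap (subIncl₂ (Set.empty_subset ({p₀} : Set P))))) :=
      IsPushout.of_vert_isIso ⟨by simp⟩
    obtain ⟨π, -, -, pb₀, pb₁⟩ := fiber_both hA hT (Set.empty_subset _) sq sq'
      (c.map (nvMap (subIncl ({p₀} : Set P)))) (by simp) (by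
        rw [← c.map_comp]
        rfl)
    refine LFS.of_fibers pb₀ pb₁ ?_ ?_
    · -- the nerve of a point
      let q : nerve ({p₀} : Set P) ⟶ Δ[0] := SSet.const (SSet.stdSimplex.obj₀Equiv.symm 0)
      let s : Δ[0] ⟶ nerve ({p₀} : Set P) := SSet.const (nerveEquiv.symm ⟨p₀, rfl⟩)
      have hqs : q ≫ s = 𝟙 _ := by
        ext m x i
        exact congrArg Subtype.val (Subsingleton.elim (α := ({p₀} : Set P)) _ _)
      have := hA.unit_zero
      have h3 : N.map (c.map q) ≫ N.map (c.map s) = 𝟙 _ := by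
        rw [← N.map_comp, ← c.map_comp, hqs, c.map_id, N.map_id]
      have hm : Mono (N.map (c.map q)) := by
        have : Mono (N.map (c.map q) ≫ N.map (c.map s)) := by
          rw [h3]
          infer_instance
        exact mono_of_mono _ (N.map (c.map s))
      have hm' : Mono (N.map (c.map q) ≫ inv (adj.unit.app Δ[0])) := mono_comp _ _
      exact LFS.of_mono (N.map (c.map q) ≫ inv (adj.unit.app Δ[0])) LFS.point
    · rw [Category.comp_id] at pb₁
      have hcard : Nat.card (({p₀} : Set P)ᶜ : Set P) < n := by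
        rw [← hn]
        have h2 : (({p₀} : Set P)ᶜ) ⊂ Set.univ := by
          rw [Set.ssubset_univ_iff]
          intro h
          have : p₀ ∈ (({p₀} : Set P)ᶜ) := by rw [h]; trivial
          exact this rfl
        have h3 := Set.ncard_lt_ncard h2 (Set.toFinite _)
        rwa [Set.ncard_univ] at h3
      exact ih _ hcard (({p₀} : Set P)ᶜ : Set P) rfl

/-- Loop-freeness of pushouts. -/
lemma lfs_pushout [HasPullbacks D] (hA : ModelAxioms adj) {E : Type u} [PartialOrder E] [Finite E]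
    {S : Set E} (hS : IsLowerSet S)
    {X Y : D} {a : c.obj (nerve S) ⟶ X} {b : c.obj (nerve E) ⟶ Y} {j : X ⟶ Y}
    (sq : IsPushout (c.map (nvMap (subIncl S))) a b j) (h : LFS (N.obj X)) : LFS (N.obj Y) := by
  have sq' : IsPushout (c.map (nvMap (subIncl₂ (le_refl S)))) a a (𝟙 X) := by
    have e : c.map (nvMap (subIncl₂ (le_refl S))) = 𝟙 _ := c.map_id _
    rw [e]
    exact IsPushout.of_id_fst
  obtain ⟨π, -, -, pb₀, pb₁⟩ := fiber_both hA hS (le_refl S) sq sq' j sq.w.symm (by simp)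
  exact LFS.of_fibers pb₀ pb₁ h (lfs_unit hA _ _ rfl)

end

section

variable {J : Type u} [LinearOrder J] [OrderBot J] {F : J ⥤ SSet.{u}} {t : Cocone F}

/-- Loop-freeness of colimits of chains. -/
lemma lfs_colimit (ht : IsColimit t) (h : ∀ j, LFS (F.obj j)) : LFS t.pt := by
  have hne : Nonempty J := ⟨⊥⟩
  have hs : ∀ (n : ℕ) (x : t.pt _⦋n⦌), ∃ (j : J) (y : (F.obj j) _⦋n⦌), (t.ι.app j).app _ y = x := by
    intro n x
    exact Types.jointly_surjective_of_isColimit
      (isColimitOfPreserves ((evaluation _ _).obj (op ⦋n⦌)) ht) x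
  have he : ∀ (n : ℕ) (j : J) (x y : (F.obj j) _⦋n⦌),
      (t.ι.app j).app _ x = (t.ι.app j).app _ y →
      ∃ (k : J) (hk : j ≤ k), (F.map (homOfLE hk)).app _ x = (F.map (homOfLE hk)).app _ y := by
    intro n j x y hxy
    obtain ⟨k, f, g, hfg⟩ := (Types.FilteredColimit.isColimit_eq_iff _
      (isColimitOfPreserves ((evaluation _ _).obj (op ⦋n⦌)) ht)).1 hxy
    exact ⟨k, leOfHom f, hfg⟩
  have hp : ∀ (n : ℕ) {j k : J} (hk : j ≤ k) (y : (F.obj j) _⦋n⦌),
      (t.ι.app k).app _ ((F.map (homOfLE hk)).app _ y) = (t.ι.app j).app _ y := by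
    intro n j k hk y
    exact ConcreteCategory.congr_hom (congr_app (t.w (homOfLE hk)) (op ⦋n⦌)) y
  have hc : ∀ (n : ℕ) {j k l : J} (hk : j ≤ k) (hl : k ≤ l) (y : (F.obj j) _⦋n⦌),
      (F.map (homOfLE hl)).app _ ((F.map (homOfLE hk)).app _ y) =
        (F.map (homOfLE (hk.trans hl))).app _ y := by
    intro n j k l hk hl y
    exact ConcreteCategory.congr_hom (congr_app (F.map_comp (homOfLE hk) (homOfLE hl)).symm
      (op ⦋n⦌)) y
  refine ⟨fun n x hx => ?_, fun e e' h1 h2 => ?_⟩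
  · obtain ⟨j, y, rfl⟩ := hs n x
    have h1 : ∀ i, ∃ (k : J) (hk : j ≤ k), (F.map (homOfLE hk)).app _ (vtx y i) =
        (F.map (homOfLE hk)).app _ (vtx y 0) := by
      intro i
      apply he
      rw [app_vtx, app_vtx, hx i]
    choose k hk hke using h1
    let m : J := Finset.univ.sup k
    have hkm : ∀ i, k i ≤ m := fun i => Finset.le_sup (Finset.mem_univ i)
    have hjm : j ≤ m := (hk 0).trans (hkm 0)
    have h2 : ∀ i, vtx ((F.map (homOfLE hjm)).app _ y) i =
        vtx ((F.map (homOfLE hjm)).app _ y) 0 := by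
      intro i
      rw [← app_vtx, ← app_vtx, ← hc 0 (hk i) (hkm i), hke i, hc 0 (hk i) (hkm i)]
    have h3 := (h m).1 n _ h2
    rw [← hp n hjm y]
    refine (congrArg _ h3).trans ?_
    rw [app_cst, app_vtx]
  · obtain ⟨j₀, y₀, rfl⟩ := hs 1 e
    obtain ⟨j₁, y₁, rfl⟩ := hs 1 e'
    obtain ⟨j, y, y', hy, hy'⟩ : ∃ (j : J) (y y' : (F.obj j) _⦋1⦌),
        (t.ι.app j).app _ y = (t.ι.app j₀).app _ y₀ ∧
        (t.ι.app j).app _ y' = (t.ι.app j₁).app _ y₁ :=
      ⟨max j₀ j₁, _, _, hp 1 (le_max_left _ _) y₀, hp 1 (le_max_right _ _) y₁⟩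
    rw [← hy, ← hy'] at h1 h2
    rw [← hy]
    rw [← app_vtx, ← app_vtx] at h1 h2
    obtain ⟨k, hk, hke⟩ := he 0 j _ _ h1
    obtain ⟨l, hl, hle⟩ := he 0 j _ _ h2
    have h3 := (h (max k l)).2 ((F.map (homOfLE (hk.trans (le_max_left k l)))).app _ y)
      ((F.map (homOfLE (hk.trans (le_max_left k l)))).app _ y') (by
        rw [← app_vtx, ← app_vtx, ← hc 0 hk (le_max_left k l), hke, hc 0 hk (le_max_left k l)]) (by
        rw [← app_vtx, ← app_vtx]
        have e1 := hc 0 hl (le_max_right k l) (vtx y' 1)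
        have e2 := hc 0 hl (le_max_right k l) (vtx y 0)
        rw [hle] at e1
        exact e1.symm.trans e2)
    rw [← hp 1 (hk.trans (le_max_left k l)) y]
    exact (app_vtx (t.ι.app (max k l)) _ 0).symm.trans
      ((congrArg _ h3).trans (app_vtx (t.ι.app (max k l)) _ 1))

end

section

variable {D : Type (u + 1)} [Category.{u} D] (N : D ⥤ SSet.{u})

/-- The maps `j : X ⟶ Y` such that `Y` is loop-free if `X` is. -/
def lfV : MorphismProperty D := fun X Y _ => LFS (N.obj X) → LFS (N.obj Y)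

lemma lfs_iso {X Y : D} (e : X ≅ Y) (h : LFS (N.obj X)) : LFS (N.obj Y) :=
  LFS.of_mono (N.map e.inv) h

instance : (lfV N).RespectsIso :=
  MorphismProperty.RespectsIso.of_respects_arrow_iso _ (fun _ _ e h hX =>
    lfs_iso N (Arrow.rightFunc.mapIso e) (h (lfs_iso N (Arrow.leftFunc.mapIso e.symm) hX)))

variable [PreservesFilteredColimitsOfSize.{u, u} N]
  {J : Type u} [LinearOrder J] [OrderBot J] [SuccOrder J] [WellFoundedLT J]

variable {N} in
lemma lfs_chain (F : J ⥤ D) [F.IsWellOrderContinuous]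
    (h : ∀ j : J, ¬ IsMax j → lfV N (F.map (homOfLE (Order.le_succ j))))
    (h0 : LFS (N.obj (F.obj ⊥))) (j : J) : LFS (N.obj (F.obj j)) := by
  induction j using SuccOrder.limitRecOn with
  | isMin j hj =>
    obtain rfl : j = ⊥ := hj.eq_bot
    exact h0
  | succ j hj ih => exact h j hj ih
  | isSuccLimit j hj ih =>
    have : Nonempty (Set.Iio j) := ⟨⟨⊥, hj.bot_lt⟩⟩
    let : OrderBot (Set.Iio j) :=
      { bot := ⟨⊥, hj.bot_lt⟩
        bot_le k := (bot_le : (⊥ : J) ≤ k.1) }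
    exact lfs_colimit (isColimitOfPreserves N (F.isColimitOfIsWellOrderContinuous j hj))
      (fun k => ih k.1 k.2)

instance isStableUnderTransfiniteComposition_lfV :
    IsStableUnderTransfiniteComposition.{u} (lfV N) where
  isStableUnderTransfiniteCompositionOfShape J _ _ _ _ :=
    { le := by
        rintro X Y f ⟨h⟩ hX
        exact lfs_colimit (isColimitOfPreserves N h.isColimit)
          (lfs_chain h.F h.map_mem (lfs_iso N h.isoBot.symm hX)) }

end

section

variable {D : Type (u + 1)} [Category.{u} D] {c : SSet.{u} ⥤ D} {N : D ⥤ SSet.{u}}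
  {adj : c ⊣ N}

lemma lfV_boundary [HasPullbacks D] (hA : ModelAxioms adj) (m : ℕ) :
    AS.univPush (lfV N) (c.map (SSet.sd.map (SSet.sd.map (∂Δ[m] : SSet.Subcomplex.{u} _).ι))) := by
  obtain ⟨E, _, _, S, r, hS, hrS, hr, ⟨e⟩⟩ := SdMain.sd_sd_boundary.{u} m
  let el : SSet.sd.obj (SSet.sd.obj (∂Δ[m] : SSet.Subcomplex.{u} _)) ≅ nerve S :=
    Arrow.leftFunc.mapIso e
  let er : SSet.sd.obj (SSet.sd.obj Δ[m]) ≅ nerve E := Arrow.rightFunc.mapIso e
  have w : SSet.sd.map (SSet.sd.map (∂Δ[m] : SSet.Subcomplex.{u} _).ι) ≫ er.hom =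
      el.hom ≫ nvMap (subIncl S) := (Arrow.w e.hom).symm
  intro X P a b j sq
  refine lfs_pushout hA hS (a := c.map el.inv ≫ a) (b := c.map er.inv ≫ b) (j := j) ?_
  refine IsPushout.of_iso sq (c.mapIso el) (c.mapIso er) (Iso.refl _) (Iso.refl _)
    ?_ ?_ ?_ ?_
  · simp only [Functor.mapIso_hom]
    rw [← c.map_comp, ← c.map_comp, w]
  · simp only [Iso.refl_hom, Category.comp_id, Functor.mapIso_hom]
    rw [← Category.assoc, ← c.map_comp, el.hom_inv_id, c.map_id, Category.id_comp]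
  · simp only [Iso.refl_hom, Category.comp_id, Functor.mapIso_hom]
    rw [← Category.assoc, ← c.map_comp, er.hom_inv_id, c.map_id, Category.id_comp]
  · simp

/-- The nerves of the cofibrant objects are loop-free. -/
theorem lfs_cofibrant [HasPullbacks D] [HasColimitsOfSize.{u, u} D] (hA : ModelAxioms adj)
    [PreservesFilteredColimitsOfSize.{u, u} N] {A X : D} (hI : IsInitial A) (i : A ⟶ X)
    (hi : thC N i) : LFS (N.obj X) := by
  have : PreservesFilteredColimitsOfSize.{u, u} (N ⋙ (SSet.ex ⋙ SSet.ex)) := inferInstance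
  have e : thF N ⊓ thW N = (AS.genI ((SSet.sd ⋙ SSet.sd) ⋙ c)).rlp := by
    rw [AS.rlp_genI (AS.adj₂ adj)]
    ext X Y f
    exact AS.thF_thW_iff f
  have hs := AS.hasSmallObjectArgument_genI (AS.adj₂ adj)
  have hle : (transfiniteCompositions.{u}
      (coproducts.{u} (AS.genI ((SSet.sd ⋙ SSet.sd) ⋙ c))).pushouts) ≤
        AS.univPush (lfV N) := by
    have : IsStableUnderCoproducts.{u} (AS.univPush (lfV N)) :=
      AS.isStableUnderCoproducts_of_transfinite _
    rw [transfiniteCompositions_le_iff, pushouts_le_iff, coproducts_le_iff]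
    rintro X Y f ⟨m⟩
    exact lfV_boundary hA m
  have hi' : (AS.genI ((SSet.sd ⋙ SSet.sd) ⋙ c)).rlp.llp i := by
    rw [← e]; exact hi
  rw [llp_rlp_of_hasSmallObjectArgument] at hi'
  obtain ⟨X', Y', j, ret, hj⟩ := hi'
  have h1 : lfV N j := AS.univPush_le _ _ (hle _ hj)
  obtain ⟨hX'⟩ := hA.strict (ret.r.left ≫ hI.to _)
  have h2 : LFS (N.obj Y') := h1 (LFS.of_isEmpty (isEmpty_vertices hA hX'))
  have h3 : N.map ret.i.right ≫ N.map ret.r.right = 𝟙 _ := by
    rw [← N.map_comp]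
    exact (congrArg N.map ret.retract_right).trans (N.map_id _)
  have h4 : Mono (N.map ret.i.right) := by
    have : Mono (N.map ret.i.right ≫ N.map ret.r.right) := by
      rw [h3]
      infer_instance
    exact mono_of_mono _ (N.map ret.r.right)
  exact LFS.of_mono (N.map ret.i.right) h2

end

end Vale.Agent.P213.LF574
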