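import Vale.Agent.P213.H574.Defs
import Mathlib.CategoryTheory.Adjunction.Basic

/-!
The left adjoint of the inclusion of strict `n`-categories into strict `m`-categories.
-/

open CategoryTheory Limits

namespace Vale.Agent.P213.H574

open SX

instance {n m : ℕ∞} (h : n ≤ m) : (incl h).Full where
  map_surjective f := ⟨⟨f.toFun, f.isFun⟩, rfl⟩

instance {n m : ℕ∞} (h : n ≤ m) : (incl h).Faithful where
  map_injective {X Y f g} e := by
    cases f
    cases g
    exact congrArg (fun k : Fun (up h X) (up h Y) => (⟨k.toFun, k.isFun⟩ : Fun X Y)) e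

theorem fun_ext {n : ℕ∞} {X Y : NCat n} {f g : X ⟶ Y} (e : f.toFun = g.toFun) : f = g := by
  obtain ⟨f, hf⟩ := f
  obtain ⟨g, hg⟩ := g
  cases e
  rfl

theorem d_of_le {n : ℕ∞} (X : NCat n) (a : Bool) {k : ℕ} (hk : n ≤ (k : ℕ∞)) (x : X.C) :
    X.d a k x = x := by
  have h := X.dim k x hk
  have h1 := X.dd a false k k x
  rw [if_neg (lt_irrefl k), h] at h1
  exact h1

theorem dlt {n : ℕ∞} (X : NCat n) (a b : Bool) {j k : ℕ} (h : j < k) (x : X.C) :
    X.d a j (X.d b k x) = X.d a j x := by rw [X.dd, if_pos h]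

theorem dge {n : ℕ∞} (X : NCat n) (a b : Bool) {j k : ℕ} (h : k ≤ j) (x : X.C) :
    X.d a j (X.d b k x) = X.d b k x := by rw [X.dd, if_neg (not_lt.2 h)]

theorem dcmp_lt {n : ℕ∞} (X : NCat n) (a : Bool) {j k : ℕ} (hjk : j < k) {x y : X.C}
    (h : X.d true k x = X.d false k y) : X.d a j (X.cmp k x y) = X.d a j x := by
  have h1 := X.dd a false j k (X.cmp k x y)
  rw [if_pos hjk, X.src k x y h, X.dd, if_pos hjk] at h1
  exact h1.symm

section

variable {m : ℕ∞} (n : ℕ) (X : NCat m)

/-- The relation between a cell and its `n`-dimensional source and target. -/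
def rel (x y : X.C) : Prop := ∃ a, y = X.d a n x

/-- The cells of the truncation. -/
abbrev TC : Type := Quot (rel n X)

variable {n X}

/-- The class of a cell. -/
def cl (x : X.C) : TC n X := Quot.mk _ x

theorem cl_d (a : Bool) (x : X.C) : (cl (X.d a n x) : TC n X) = cl x :=
  (Quot.sound ⟨a, rfl⟩).symm

theorem cl_d_of_le (a : Bool) {k : ℕ} (hk : n ≤ k) (x : X.C) :
    (cl (X.d a k x) : TC n X) = cl x := by
  rcases hk.lt_or_eq with h | rfl
  · rw [← cl_d true (X.d a k x), X.dd, if_pos h, cl_d]
  · exact cl_d a x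

theorem d_congr (b : Bool) (k : ℕ) {x y : X.C} (h : rel n X x y) :
    (cl (X.d b k x) : TC n X) = cl (X.d b k y) := by
  obtain ⟨a, rfl⟩ := h
  rw [X.dd]
  split_ifs with hk
  · rfl
  · rw [cl_d_of_le b (not_lt.1 hk), cl_d]

/-- Source and target in the truncation. -/
def Td (b : Bool) (k : ℕ) : TC n X → TC n X :=
  Quot.lift (fun x => cl (X.d b k x)) fun _ _ h => d_congr b k h

@[simp] theorem Td_cl (b : Bool) (k : ℕ) (x : X.C) : Td b k (cl x : TC n X) = cl (X.d b k x) := rfl

theorem low {b : Bool} {k : ℕ} (hk : k < n) {x y : X.C} (h : (cl x : TC n X) = cl y) :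
    X.d b k x = X.d b k y := by
  let φ : TC n X → X.C := Quot.lift (fun x => X.d b k x) (by
    rintro x _ ⟨a, rfl⟩
    simp only [X.dd, if_pos hk])
  exact congrArg φ h

theorem low' {k : ℕ} (hk : k < n) {a b : Bool} {x y : X.C}
    (h : (cl (X.d a k x) : TC n X) = cl (X.d b k y)) : X.d a k x = X.d b k y := by
  have h1 := low (b := false) hk h
  rwa [X.dd, X.dd, if_neg (lt_irrefl k), if_neg (lt_irrefl k)] at h1

open Classical in
/-- Composition in the truncation, before passing to classes. -/
noncomputable def pcmp (k : ℕ) (x y : X.C) : TC n X :=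
  if X.d true k x = X.d false k y then cl (X.cmp k x y) else cl x

theorem pcmp_pos {k : ℕ} {x y : X.C} (h : X.d true k x = X.d false k y) :
    (pcmp k x y : TC n X) = cl (X.cmp k x y) := if_pos h

theorem cl_cmp (a : Bool) {k : ℕ} (hk : k < n) {x y : X.C} (h : X.d true k x = X.d false k y) :
    (cl (X.cmp k x y) : TC n X) = cl (X.cmp k (X.d a n x) (X.d a n y)) := by
  rw [← X.dcomp a n k x y hk h, cl_d]

theorem pcmp_left {k : ℕ} (hk : k < n) (a : Bool) (x y : X.C) :
    (pcmp k x y : TC n X) = pcmp k (X.d a n x) y := by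
  unfold pcmp
  rw [dlt X _ _ hk]
  split_ifs with h
  · have h' : X.d true k (X.d a n x) = X.d false k y := by rw [dlt X _ _ hk, h]
    have e := cl_cmp a hk h'
    rw [dge X _ _ le_rfl x] at e
    exact (cl_cmp a hk h).trans e.symm
  · rw [cl_d]

theorem pcmp_right {k : ℕ} (hk : k < n) (a : Bool) (x y : X.C) :
    (pcmp k x y : TC n X) = pcmp k x (X.d a n y) := by
  unfold pcmp
  rw [dlt X _ _ hk y]
  split_ifs with h
  · have h' : X.d true k x = X.d false k (X.d a n y) := by rw [dlt X _ _ hk, h]
    have e := cl_cmp a hk h'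
    rw [dge X _ _ le_rfl y] at e
    exact (cl_cmp a hk h).trans e.symm
  · rfl

open Classical in
/-- Composition in the truncation. -/
noncomputable def Tcmp (k : ℕ) (u v : TC n X) : TC n X :=
  if hk : k < n then
    Quot.lift (fun x => Quot.lift (fun y => (pcmp k x y : TC n X))
      (by rintro y _ ⟨a, rfl⟩; exact pcmp_right hk a x y) v)
      (by
        rintro x _ ⟨a, rfl⟩
        induction v using Quot.ind with
        | mk y => exact pcmp_left hk a x y) u
  else u

theorem Tcmp_cl {k : ℕ} (hk : k < n) {x y : X.C} (h : X.d true k x = X.d false k y) :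
    Tcmp k (cl x : TC n X) (cl y) = cl (X.cmp k x y) := by
  unfold Tcmp
  rw [dif_pos hk]
  exact pcmp_pos h

theorem Tcmp_of_le {k : ℕ} (hk : n ≤ k) (u v : TC n X) : Tcmp k u v = u := by
  unfold Tcmp
  rw [dif_neg (not_lt.2 hk)]

theorem Td_of_le (a : Bool) {k : ℕ} (hk : n ≤ k) (u : TC n X) : Td a k u = u := by
  induction u using Quot.ind with
  | mk x => exact cl_d_of_le a hk x

variable (n X)

/-- The truncation of a strict `m`-category. -/
noncomputable def trunc : NCat (n : ℕ∞) where
  C := TC n X
  d := Td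
  cmp := Tcmp
  fin u := ⟨n, Td_of_le _ le_rfl u⟩
  dd a b j k u := by
    induction u using Quot.ind with
    | mk x =>
      change Td a j (Td b k (cl x)) = if j < k then Td a j (cl x) else Td b k (cl x)
      simp only [Td_cl, X.dd]
      split_ifs <;> rfl
  src k u v h := by
    induction u using Quot.ind with
    | mk x =>
    induction v using Quot.ind with
    | mk y =>
    change Td false k (Tcmp k (cl x) (cl y)) = Td false k (cl x)
    rcases lt_or_ge k n with hk | hk
    · have h' := low' hk h
      rw [Tcmp_cl hk h', Td_cl, X.src k x y h', Td_cl]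
    · rw [Tcmp_of_le hk]
  tgt k u v h := by
    rcases lt_or_ge k n with hk | hk
    · induction u using Quot.ind with
      | mk x =>
      induction v using Quot.ind with
      | mk y =>
      change Td true k (Tcmp k (cl x) (cl y)) = Td true k (cl y)
      have h' := low' hk h
      rw [Tcmp_cl hk h', Td_cl, X.tgt k x y h', Td_cl]
    · rw [Tcmp_of_le hk, h, Td_of_le _ hk, Td_of_le _ hk]
  dcomp a j k u v hjk h := by
    rcases lt_or_ge k n with hk | hk
    · induction u using Quot.ind with
      | mk x =>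
      induction v using Quot.ind with
      | mk y =>
      change Td a j (Tcmp k (cl x) (cl y)) = Tcmp k (Td a j (cl x)) (Td a j (cl y))
      have h' := low' hk h
      rw [Tcmp_cl hk h', Td_cl, X.dcomp a j k x y hjk h', Td_cl, Td_cl, Tcmp_cl hk]
      rw [X.dd, X.dd, if_pos hjk, if_pos hjk, h']
    · rw [Tcmp_of_le hk, Tcmp_of_le hk]
  idl k u := by
    rcases lt_or_ge k n with hk | hk
    · induction u using Quot.ind with
      | mk x =>
      change Tcmp k (Td false k (cl x)) (cl x) = cl x
      rw [Td_cl, Tcmp_cl hk, X.idl]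
      rw [X.dd, if_neg (lt_irrefl k)]
    · rw [Tcmp_of_le hk, Td_of_le _ hk]
  idr k u := by
    rcases lt_or_ge k n with hk | hk
    · induction u using Quot.ind with
      | mk x =>
      change Tcmp k (cl x) (Td true k (cl x)) = cl x
      rw [Td_cl, Tcmp_cl hk, X.idr]
      rw [X.dd, if_neg (lt_irrefl k)]
    · rw [Tcmp_of_le hk]
  asc k u v w h1 h2 := by
    rcases lt_or_ge k n with hk | hk
    · induction u using Quot.ind with
      | mk x =>
      induction v using Quot.ind with
      | mk y =>
      induction w using Quot.ind with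
      | mk z =>
      change Tcmp k (Tcmp k (cl x) (cl y)) (cl z) = Tcmp k (cl x) (Tcmp k (cl y) (cl z))
      have h1' := low' hk h1
      have h2' := low' hk h2
      rw [Tcmp_cl hk h1', Tcmp_cl hk h2', Tcmp_cl hk (by rw [X.tgt k x y h1', h2']),
        Tcmp_cl hk (by rw [X.src k y z h2', h1']), X.asc k x y z h1' h2']
    · rw [Tcmp_of_le hk, Tcmp_of_le hk, Tcmp_of_le hk]
  inter j k x y z w hjk h1 h2 h3 := by
    rcases lt_or_ge k n with hk | hk
    · induction x using Quot.ind with
      | mk x =>
      induction y using Quot.ind with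
      | mk y =>
      induction z using Quot.ind with
      | mk z =>
      induction w using Quot.ind with
      | mk w =>
      change Tcmp j (Tcmp k (cl x) (cl y)) (Tcmp k (cl z) (cl w)) =
        Tcmp k (Tcmp j (cl x) (cl z)) (Tcmp j (cl y) (cl w))
      have hj := hjk.trans hk
      have h1' := low' hk h1
      have h2' := low' hk h2
      have h3' := low' hj h3
      have e1 : X.d true j x = X.d true j y := by
        have e := congrArg (X.d true j) h1'
        rwa [dlt X _ _ hjk, dlt X _ _ hjk] at e
      have e2 : X.d false j z = X.d false j w := by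
        have e := congrArg (X.d false j) h2'
        rwa [dlt X _ _ hjk, dlt X _ _ hjk] at e
      have h4' : X.d true j y = X.d false j w := by rw [← e1, ← e2, h3']
      rw [Tcmp_cl hk h1', Tcmp_cl hk h2', Tcmp_cl hj h3', Tcmp_cl hj h4', Tcmp_cl hj, Tcmp_cl hk,
        X.inter j k x y z w hjk h1' h2' h3']
      · rw [X.dcomp true k j x z hjk h3', X.dcomp false k j y w hjk h4', h1', h2']
      · rw [dcmp_lt X _ hjk h1', dcmp_lt X _ hjk h2', h3']
    · rw [Tcmp_of_le hk, Tcmp_of_le hk, Tcmp_of_le hk]
  dim k u hk := Td_of_le _ (by exact_mod_cast hk) u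

end

section

variable {m : ℕ∞} {n : ℕ} (h : (n : ℕ∞) ≤ m)

/-- The unit. -/
noncomputable def unitT (X : NCat m) : X ⟶ (incl h).obj (trunc n X) where
  toFun := fun x => (cl x : TC n X)
  isFun := ⟨fun a k x => rfl, fun k x y hxy => by
    change (cl (X.cmp k x y) : TC n X) = Tcmp k (cl x) (cl y)
    rcases lt_or_ge k n with hk | hk
    · rw [Tcmp_cl hk hxy]
    · rw [Tcmp_of_le hk, ← cl_d_of_le false hk (X.cmp k x y), X.src k x y hxy,
        cl_d_of_le false hk]⟩

theorem desc_aux {X : NCat m} {Y : NCat (n : ℕ∞)} (f : X ⟶ (incl h).obj Y) (x y : X.C)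
    (hxy : rel n X x y) : f.toFun x = f.toFun y := by
  obtain ⟨a, rfl⟩ := hxy
  rw [f.isFun.1]
  exact (d_of_le Y a le_rfl _).symm

/-- The map out of the truncation. -/
noncomputable def descT {X : NCat m} {Y : NCat (n : ℕ∞)} (f : X ⟶ (incl h).obj Y) :
    trunc n X ⟶ Y where
  toFun := Quot.lift f.toFun (desc_aux h f)
  isFun := by
    refine ⟨fun a k u => ?_, fun k u v huv => ?_⟩
    · induction u using Quot.ind with
      | mk x => exact f.isFun.1 a k x
    · rcases lt_or_ge k n with hk | hk
      · induction u using Quot.ind with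
        | mk x =>
        induction v using Quot.ind with
        | mk y =>
        have h' := low' hk huv
        change Quot.lift f.toFun (desc_aux h f) (Tcmp k (cl x) (cl y)) =
          Y.cmp k (f.toFun x) (f.toFun y)
        rw [Tcmp_cl hk h']
        exact f.isFun.2 k x y h'
      · have huv' : u = v := (Td_of_le true hk u).symm.trans (huv.trans (Td_of_le false hk v))
        subst huv'
        have e1 : (trunc n X).cmp k u u = u := Tcmp_of_le hk u u
        rw [e1]
        have e2 := Y.idl k (Quot.lift f.toFun (desc_aux h f) u)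
        rw [Y.dim k _ (by exact_mod_cast hk)] at e2
        exact e2.symm

/-- The bijection. -/
noncomputable def homEquivT (X : NCat m) (Y : NCat (n : ℕ∞)) :
    (trunc n X ⟶ Y) ≃ (X ⟶ (incl h).obj Y) where
  toFun g := unitT h X ≫ (incl h).map g
  invFun f := descT h f
  left_inv g := by
    apply fun_ext
    funext u
    induction u using Quot.ind with
    | mk x => rfl
  right_inv f := rfl

/-- The inclusion has a left adjoint. -/
theorem isRightAdjoint_incl_nat : (incl h).IsRightAdjoint :=
  (Adjunction.adjunctionOfEquivLeft (homEquivT h) (fun _ _ _ _ _ => rfl)).isRightAdjoint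

end

/-- The inclusion has a left adjoint. -/
theorem isRightAdjoint_incl {n m : ℕ∞} (h : n ≤ m) : (incl h).IsRightAdjoint := by
  induction n using ENat.recTopCoe with
  | coe n => exact isRightAdjoint_incl_nat h
  | top =>
    obtain rfl : m = ⊤ := top_le_iff.1 h
    exact (Adjunction.adjunctionOfEquivLeft (F_obj := fun X => X)
      (fun X Y => (⟨fun f => ⟨f.toFun, f.isFun⟩, fun f => ⟨f.toFun, f.isFun⟩, fun _ => rfl,
        fun _ => rfl⟩ : (X ⟶ Y) ≃ (X ⟶ (incl h).obj Y)))
      (fun _ _ _ _ _ => rfl)).isRightAdjoint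

end Vale.Agent.P213.H574
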