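import Vale.Agent.P213.Bdl.B14
import Vale.Agent.P213.H574.Trunc
import Vale.Agent.P213.H574.Quillen
import Vale.Agent.P213.H574.Kfold
import Vale.Agent.P213.H574.LoopC

/-!
The inclusions of strict `n`-categories into strict `m`-categories are right Quillen equivalences
for the Thomason model structures, for all subdivisions `Sd^k`, `k ≥ 2`.
-/

open CategoryTheory Limits HomotopicalAlgebra

namespace Vale.Agent.P213.SX.H574M

open H574

attribute [local instance] opsOf

/-- The Street nerves preserve filtered colimits. -/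
theorem preservesFiltered {n : ℕ∞} {N : NCat n ⥤ SSet.{0}}
    (hN : IsStreetNerve id (fun _ _ => Fun.toFun) N) :
    PreservesFilteredColimitsOfSize.{0, 0} N := by
  obtain ⟨ev, h1⟩ := hN.toSt
  let e : nerveSX n ≅ N := St.isoN (isStreetNerve_nerveSX n) h1
  have h2 : PreservesFilteredColimitsOfSize.{0, 0} (toRealSX n) :=
    ⟨fun _ _ _ => inferInstance⟩
  have h3 : PreservesFilteredColimitsOfSize.{0, 0} (nerveSX n) :=
    comp_preservesFilteredColimits _ _
  exact ⟨fun J _ _ => preservesColimitsOfShape_of_natIso e⟩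

theorem hasColimits (n : ℕ∞) : HasColimitsOfSize.{0, 0} (NCat n) :=
  Adjunction.has_colimits_of_equivalence (toRealSX n)

theorem hasLimits (n : ℕ∞) : HasLimitsOfSize.{0, 0} (NCat n) :=
  Adjunction.has_limits_of_equivalence (toRealSX n)

theorem thomasonK {n : ℕ∞} (hn : 1 ≤ n) {N : NCat n ⥤ SSet.{0}}
    (hN : IsStreetNerve id (fun _ _ => Fun.toFun) N) (k : ℕ) (hk : 2 ≤ k) : IsThomasonK N k := by
  have := preservesFiltered hN
  have := hasColimits n
  have := hasLimits n
  have : HasFiniteLimits (NCat n) := hasFiniteLimits_of_hasLimits _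
  exact isThomasonK ((main n hn).2 N hN) k hk

/-- Cofibrant objects are loop-free. -/
theorem loopFree {n : ℕ∞} (hn : 1 ≤ n) {N : NCat n ⥤ SSet.{0}}
    (hN : IsStreetNerve id (fun _ _ => Fun.toFun) N) (k : ℕ) (hk : 2 ≤ k) (X : NCat n)
    (hX : IsCof (thCk N k) X) : IsLoopFree X := by
  obtain ⟨ev, h1⟩ := hN.toSt
  let e : nerveSX n ≅ N := St.isoN (isStreetNerve_nerveSX n) h1
  have eC : thC N = (P213.thC (nerveN n)).inverseImage (toRealSX n) :=
    (St.thC_iso e).symm.trans (St.thC_transport _)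
  have := hasColimits n
  have h2 : thC N (initial.to X) := thCk_anti N hk _ (hX _ initialIsInitial _)
  rw [eC] at h2
  have h3 : LF574.LFS ((nerveN n).obj ((toRealSX n).obj X)) :=
    LF574.lfs_cofibrant (modelAxioms_nerveN hn (Adjunction.ofIsRightAdjoint (nerveN n)))
      (IsInitial.isInitialObj (toRealSX n) _ initialIsInitial) _ h2
  have h4 : LF574.LFS (N.obj X) := LF574.LFS.of_mono (e.inv.app X) h3
  exact fun x y h5 h6 => isLoopFree hN h4 x y h5 h6

variable {n m : ℕ∞} (h : n ≤ m)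

/-- The Street nerve of `m`-categories restricts to the Street nerve of `n`-categories. -/
theorem isStreetNerve_incl {M : NCat m ⥤ SSet.{0}}
    (hM : IsStreetNerve id (fun _ _ => Fun.toFun) M) :
    IsStreetNerve (D := NCat n) id (fun _ _ => Fun.toFun) (incl h ⋙ M) := by
  obtain ⟨ev, h1, h2, h3⟩ := hM
  exact ⟨fun X => ev (up h X), fun X => h1 (up h X),
    fun X Y φ => h2 (up h X) (up h Y) ((incl h).map φ), fun X => h3 (up h X)⟩

theorem map_iff_of_iso {D : Type 1} [Category.{0} D] {N N' : D ⥤ SSet.{0}} (e : N ≅ N')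
    (P : MorphismProperty SSet.{0}) [P.RespectsIso] :
    P.inverseImage N = P.inverseImage N' := by
  ext X Y f
  exact P.arrow_mk_iso_iff (((Functor.mapArrowFunctor _ _).mapIso e).app (Arrow.mk f))

theorem classes_incl {N : NCat n ⥤ SSet.{0}} {M : NCat m ⥤ SSet.{0}}
    (hN : IsStreetNerve id (fun _ _ => Fun.toFun) N)
    (hM : IsStreetNerve id (fun _ _ => Fun.toFun) M) :
    thW N = thW (incl h ⋙ M) ∧ (∀ k, thFk N k = thFk (incl h ⋙ M) k) ∧
      ∀ k, thCk N k = thCk (incl h ⋙ M) k := by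
  obtain ⟨ev, h0⟩ := hN.toSt
  obtain ⟨ev', h1⟩ := (isStreetNerve_incl h hM).toSt
  let e : N ≅ incl h ⋙ M := St.isoN h0 h1
  have e1 : thW N = thW (incl h ⋙ M) := St.thW_iso e
  have e2 : ∀ k, thFk N k = thFk (incl h ⋙ M) k := fun k =>
    map_iff_of_iso (Functor.isoWhiskerRight e (exk k)) _
  exact ⟨e1, e2, fun k => by rw [thCk, thCk, e1, e2]⟩

theorem thW_incl (M : NCat m ⥤ SSet.{0}) :
    thW (incl h ⋙ M) = (thW M).inverseImage (incl h) := rfl

theorem thFk_incl (M : NCat m ⥤ SSet.{0}) (k : ℕ) :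
    thFk (incl h ⋙ M) k = (thFk M k).inverseImage (incl h) := rfl

theorem quillen (hn : 1 ≤ n) {N : NCat n ⥤ SSet.{0}} {M : NCat m ⥤ SSet.{0}}
    (hN : IsStreetNerve id (fun _ _ => Fun.toFun) N)
    (hM : IsStreetNerve id (fun _ _ => Fun.toFun) M) {t : NCat m ⥤ NCat n} (adj : t ⊣ incl h)
    (k l : ℕ) (hk : 2 ≤ k) (hkl : k ≤ l) :
    IsQuillenEq adj (thCk M l) (thW M) (thCk N k) (thW N) := by
  have hTM := thomasonK (hn.trans h) hM l (hk.trans hkl)
  have hTk := thomasonK hn (isStreetNerve_incl h hM) k hk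
  have hTl := thomasonK hn (isStreetNerve_incl h hM) l (hk.trans hkl)
  obtain ⟨eW, eF, eC⟩ := classes_incl h hN hM
  obtain ⟨c, ⟨hc⟩⟩ := ((main m (hn.trans h)).2 M hM).2.2.2.2.1
  rw [eW, eC]
  exact isQuillenEq_of' adj (fun K => inferInstance) hTM.1 hTk.1 (thW_incl h M)
    ((thFk_mono (incl h ⋙ M) hkl).trans (thFk_incl h M l).le) (adjk l) hc
    (hTM.2.2 c hc).1 (hTl.2.2 (c ⋙ t) (hc.comp adj)).1

end Vale.Agent.P213.SX.H574M
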